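import Mathlib

namespace Vale.Agent.Lib.P361.TL

open Filter Topology

/-- The one-step consequence of cube subadditivity: `a N ≤ a L + 3 (2L+1) |C - a L| / (2N+1)`. -/
lemma cube_subadditive_step (a : ℕ → ℝ) (C : ℝ)
    (hsub : ∀ N L : ℕ, (2 * (N : ℝ) + 1) ^ 3 * a N ≤
      ((((2 * N + 1) / (2 * L + 1) : ℕ) : ℝ) * (2 * (L : ℝ) + 1)) ^ 3 * a L +
        ((2 * (N : ℝ) + 1) ^ 3 -
          ((((2 * N + 1) / (2 * L + 1) : ℕ) : ℝ) * (2 * (L : ℝ) + 1)) ^ 3) * C)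
    (N L : ℕ) :
    a N ≤ a L + 3 * (2 * (L : ℝ) + 1) * |C - a L| / (2 * (N : ℝ) + 1) := by
  have h := hsub N L
  set n : ℝ := 2 * (N : ℝ) + 1 with hn
  set l : ℝ := 2 * (L : ℝ) + 1 with hl
  set m : ℝ := (((2 * N + 1) / (2 * L + 1) : ℕ) : ℝ) * l with hm
  set D : ℝ := |C - a L| with hD
  have hD0 : 0 ≤ D := abs_nonneg _
  have hnpos : 0 < n := by rw [hn]; positivity
  have hlpos : 0 < l := by rw [hl]; positivity
  have hm0 : 0 ≤ m := by rw [hm]; positivity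
  have hmn : m ≤ n := by
    have h1 : (2 * N + 1) / (2 * L + 1) * (2 * L + 1) ≤ 2 * N + 1 := Nat.div_mul_le_self _ _
    have h2 : (((2 * N + 1) / (2 * L + 1) * (2 * L + 1) : ℕ) : ℝ) ≤ ((2 * N + 1 : ℕ) : ℝ) := by
      exact_mod_cast h1
    rw [hm, hl, hn]
    push_cast at h2
    exact h2
  have hnm : n - m ≤ l := by
    have h1 : 2 * N + 1 < (2 * N + 1) / (2 * L + 1) * (2 * L + 1) + (2 * L + 1) :=
      Nat.lt_div_mul_add (by omega)
    have h2 : ((2 * N + 1 : ℕ) : ℝ)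
        ≤ (((2 * N + 1) / (2 * L + 1) * (2 * L + 1) + (2 * L + 1) : ℕ) : ℝ) := by
      exact_mod_cast h1.le
    rw [hm, hl, hn]
    push_cast at h2
    linarith
  have hcube : n ^ 3 - m ^ 3 ≤ 3 * l * n ^ 2 := by
    have e : n ^ 3 - m ^ 3 = (n - m) * (n ^ 2 + n * m + m ^ 2) := by ring
    have h1 : n ^ 2 + n * m + m ^ 2 ≤ 3 * n ^ 2 := by nlinarith
    have h2 : 0 ≤ n - m := by linarith
    have h3 : 0 ≤ n ^ 2 + n * m + m ^ 2 := by positivity
    calc n ^ 3 - m ^ 3 = (n - m) * (n ^ 2 + n * m + m ^ 2) := e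
      _ ≤ l * (3 * n ^ 2) := mul_le_mul hnm h1 h3 hlpos.le
      _ = 3 * l * n ^ 2 := by ring
  have hcube0 : 0 ≤ n ^ 3 - m ^ 3 := by
    have : m ^ 3 ≤ n ^ 3 := pow_le_pow_left₀ hm0 hmn 3
    linarith
  have h4 : n ^ 3 * (a N - a L) ≤ 3 * l * n ^ 2 * D := by
    have h5 : n ^ 3 * (a N - a L) ≤ (n ^ 3 - m ^ 3) * (C - a L) := by linarith
    have h6 : (n ^ 3 - m ^ 3) * (C - a L) ≤ (n ^ 3 - m ^ 3) * D :=
      mul_le_mul_of_nonneg_left (le_abs_self _) hcube0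
    have h7 : (n ^ 3 - m ^ 3) * D ≤ 3 * l * n ^ 2 * D := mul_le_mul_of_nonneg_right hcube hD0
    linarith
  have h8 : a N - a L ≤ 3 * l * D / n := by
    rw [le_div_iff₀ hnpos]
    have h9 : n ^ 2 * ((a N - a L) * n) ≤ n ^ 2 * (3 * l * D) := by
      calc n ^ 2 * ((a N - a L) * n) = n ^ 3 * (a N - a L) := by ring
        _ ≤ 3 * l * n ^ 2 * D := h4
        _ = n ^ 2 * (3 * l * D) := by ring
    exact le_of_mul_le_mul_left h9 (by positivity)
  linarith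

/-- Convergence of a bounded sequence indexed by cubes of odd side `2N+1` that is subadditive
under partitions of a cube into smaller cubes plus a remainder. -/
theorem tendsto_of_cube_subadditive (a : ℕ → ℝ) (C C₀ : ℝ) (hb : ∀ N, |a N| ≤ C₀)
    (hsub : ∀ N L : ℕ, (2 * (N : ℝ) + 1) ^ 3 * a N ≤
      ((((2 * N + 1) / (2 * L + 1) : ℕ) : ℝ) * (2 * (L : ℝ) + 1)) ^ 3 * a L +
        ((2 * (N : ℝ) + 1) ^ 3 -
          ((((2 * N + 1) / (2 * L + 1) : ℕ) : ℝ) * (2 * (L : ℝ) + 1)) ^ 3) * C) :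
    ∃ l, Tendsto a atTop (𝓝 l) := by
  have hbdd_le : IsBoundedUnder (· ≤ ·) atTop a :=
    isBoundedUnder_of ⟨C₀, fun N => (abs_le.mp (hb N)).2⟩
  have hbdd_ge : IsBoundedUnder (· ≥ ·) atTop a :=
    isBoundedUnder_of ⟨-C₀, fun N => (abs_le.mp (hb N)).1⟩
  have hstep := cube_subadditive_step a C hsub
  -- limsup a ≤ a L for every L
  have hlimsup : ∀ L, limsup a atTop ≤ a L := by
    intro L
    apply le_of_forall_pos_le_add
    intro ε hε
    apply limsup_le_of_le hbdd_ge.isCoboundedUnder_le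
    set K : ℝ := 3 * (2 * (L : ℝ) + 1) * |C - a L| with hK
    have hK0 : 0 ≤ K := by rw [hK]; positivity
    filter_upwards [eventually_ge_atTop (⌈K / ε⌉₊)] with N hN
    have h1 := hstep N L
    have hNr : K / ε ≤ (N : ℝ) := (Nat.le_ceil _).trans (by exact_mod_cast hN)
    have hnpos : (0 : ℝ) < 2 * (N : ℝ) + 1 := by positivity
    have h2 : K / (2 * (N : ℝ) + 1) ≤ ε := by
      rw [div_le_iff₀ hnpos]
      have h3 : K ≤ (N : ℝ) * ε := by
        rw [div_le_iff₀ hε] at hNr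
        exact hNr
      have h4 : (0 : ℝ) ≤ (N : ℝ) := Nat.cast_nonneg _
      nlinarith
    linarith
  refine ⟨liminf a atTop, ?_⟩
  apply tendsto_of_le_liminf_of_limsup_le (le_refl _) _ hbdd_le hbdd_ge
  exact le_liminf_of_le hbdd_le.isCoboundedUnder_ge (Eventually.of_forall hlimsup)

end Vale.Agent.Lib.P361.TL
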