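import Vale.Agent.Lib.P361.Roepstorff

namespace Vale.Agent.Lib.P361.TL

open Matrix Finset
open scoped ComplexOrder

/-- Diagonal entries of `W * diagonal d * star W` for a real diagonal `d`. -/
theorem conj_diag_apply {ι : Type*} [Fintype ι] [DecidableEq ι] (W : Matrix ι ι ℂ) (d : ι → ℝ)
    (i : ι) :
    (W * diagonal (fun k => (d k : ℂ)) * star W) i i =
      ((∑ k, Complex.normSq (W i k) * d k : ℝ) : ℂ) := by
  rw [Matrix.mul_apply, Complex.ofReal_sum]
  refine Finset.sum_congr rfl fun k _ => ?_
  rw [Matrix.mul_diagonal, Matrix.star_apply, Complex.star_def, Complex.ofReal_mul,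
    Complex.normSq_eq_conj_mul_self]
  ring

/-- `Tr exp (-c A)` is antitone in the Loewner order. -/
theorem trace_exp_antitone {ι : Type*} [Fintype ι] [DecidableEq ι] (A B : Matrix ι ι ℂ)
    (hA : A.IsHermitian) (hB : B.IsHermitian) (hAB : (B - A).PosSemidef) (c : ℝ) (hc : 0 ≤ c) :
    (trace (NormedSpace.exp (((-c : ℝ) : ℂ) • B))).re ≤
      (trace (NormedSpace.exp (((-c : ℝ) : ℂ) • A))).re := by
  classical
  set U : Matrix ι ι ℂ := (hB.eigenvectorUnitary : Matrix ι ι ℂ) with hU
  set V : Matrix ι ι ℂ := (hA.eigenvectorUnitary : Matrix ι ι ℂ) with hV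
  have hU1 : U * star U = 1 := Unitary.coe_mul_star_self _
  have hU2 : star U * U = 1 := Unitary.coe_star_mul_self _
  have hV1 : V * star V = 1 := Unitary.coe_mul_star_self _
  have hV2 : star V * V = 1 := Unitary.coe_star_mul_self _
  set W : Matrix ι ι ℂ := star U * V with hW
  have hWs : star W = star V * U := by rw [hW, star_mul, star_star]
  have hW1 : W * star W = 1 := by
    rw [hWs, hW, Matrix.mul_assoc, ← Matrix.mul_assoc V, hV1, Matrix.one_mul, hU2]
  -- the rows of `W` are unit vectors
  have hrow : ∀ i, ∑ k, Complex.normSq (W i k) = 1 := by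
    intro i
    have h1 := conj_diag_apply W (fun _ => (1 : ℝ)) i
    have h2 : diagonal (fun _ : ι => ((1 : ℝ) : ℂ)) = (1 : Matrix ι ι ℂ) := by
      rw [Complex.ofReal_one]; exact Matrix.diagonal_one
    rw [h2, Matrix.mul_one, hW1, Matrix.one_apply_eq] at h1
    have h3 : ((1 : ℝ) : ℂ) = ((∑ k, Complex.normSq (W i k) * 1 : ℝ) : ℂ) := by
      rw [Complex.ofReal_one]; exact h1
    have h4 := Complex.ofReal_injective h3
    simpa using h4.symm
  -- the left-hand side
  have hL : (trace (NormedSpace.exp (((-c : ℝ) : ℂ) • B))).re =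
      ∑ i, Real.exp (-c * hB.eigenvalues i) := by
    rw [exp_smul_hermitian B hB (-c), Matrix.trace_mul_cycle, hU2, Matrix.one_mul,
      Matrix.trace_diagonal, Complex.re_sum]
    exact Finset.sum_congr rfl fun i _ => Complex.ofReal_re _
  -- the right-hand side
  have hR : (trace (NormedSpace.exp (((-c : ℝ) : ℂ) • A))).re =
      ∑ i, ∑ k, Complex.normSq (W i k) * Real.exp (-c * hA.eigenvalues k) := by
    have hexpA : NormedSpace.exp (((-c : ℝ) : ℂ) • A) =
        V * diagonal (fun k => (Real.exp (-c * hA.eigenvalues k) : ℂ)) * star V :=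
      exp_smul_hermitian A hA (-c)
    have h1 : NormedSpace.exp (((-c : ℝ) : ℂ) • A) =
        U * (W * diagonal (fun k => (Real.exp (-c * hA.eigenvalues k) : ℂ)) * star W) * star U := by
      rw [hexpA, hWs, hW]
      have h2 : U * (star U * V * diagonal (fun k => (Real.exp (-c * hA.eigenvalues k) : ℂ)) *
          (star V * U)) * star U =
          (U * star U) * V * diagonal (fun k => (Real.exp (-c * hA.eigenvalues k) : ℂ)) * star V *
            (U * star U) := by
        simp only [Matrix.mul_assoc]
      rw [h2, hU1, Matrix.one_mul, Matrix.mul_one]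
    rw [h1, Matrix.trace_mul_cycle, hU2, Matrix.one_mul, trace, Complex.re_sum]
    refine Finset.sum_congr rfl fun i _ => ?_
    rw [Matrix.diag_apply, conj_diag_apply, Complex.ofReal_re]
  -- comparison of the diagonals
  have hdiag : ∀ i, ∑ k, Complex.normSq (W i k) * hA.eigenvalues k ≤ hB.eigenvalues i := by
    intro i
    have hP : (star U * (B - A) * U).PosSemidef := by
      have := hAB.conjTranspose_mul_mul_same U
      rwa [← Matrix.star_eq_conjTranspose] at this
    have h0 : 0 ≤ (star U * (B - A) * U) i i := hP.diag_nonneg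
    have hBeq : B = U * diagonal (fun k => (hB.eigenvalues k : ℂ)) * star U :=
      hermitian_eq_conj B hB
    have hAeq : A = V * diagonal (fun k => (hA.eigenvalues k : ℂ)) * star V :=
      hermitian_eq_conj A hA
    have hBd : star U * B * U = diagonal (fun k => (hB.eigenvalues k : ℂ)) := by
      have h2 : star U * (U * diagonal (fun k => (hB.eigenvalues k : ℂ)) * star U) * U =
          (star U * U) * diagonal (fun k => (hB.eigenvalues k : ℂ)) * (star U * U) := by
        simp only [Matrix.mul_assoc]
      conv_lhs => rw [hBeq]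
      rw [h2, hU2, Matrix.one_mul, Matrix.mul_one]
    have hAd : star U * A * U = W * diagonal (fun k => (hA.eigenvalues k : ℂ)) * star W := by
      conv_lhs => rw [hAeq]
      rw [hWs, hW]
      simp only [Matrix.mul_assoc]
    have h1 : (star U * (B - A) * U) i i =
        ((hB.eigenvalues i - ∑ k, Complex.normSq (W i k) * hA.eigenvalues k : ℝ) : ℂ) := by
      rw [Matrix.mul_sub, Matrix.sub_mul, Matrix.sub_apply, hBd, hAd, conj_diag_apply,
        Matrix.diagonal_apply_eq, Complex.ofReal_sub]
    rw [h1] at h0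
    have h2 : (0 : ℝ) ≤ hB.eigenvalues i - ∑ k, Complex.normSq (W i k) * hA.eigenvalues k := by
      exact_mod_cast h0
    linarith
  rw [hL, hR]
  refine Finset.sum_le_sum fun i _ => ?_
  have hJ := convexOn_exp.map_sum_le (t := (Finset.univ : Finset ι))
    (w := fun k => Complex.normSq (W i k)) (p := fun k => -c * hA.eigenvalues k)
    (fun k _ => Complex.normSq_nonneg _) (hrow i) (fun k _ => Set.mem_univ _)
  simp only [smul_eq_mul] at hJ
  refine le_trans (Real.exp_le_exp.mpr ?_) hJ
  have h5 : ∑ k, Complex.normSq (W i k) * (-c * hA.eigenvalues k) =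
      -c * ∑ k, Complex.normSq (W i k) * hA.eigenvalues k := by
    rw [Finset.mul_sum]
    exact Finset.sum_congr rfl fun k _ => by ring
  rw [h5]
  have := hdiag i
  nlinarith

end Vale.Agent.Lib.P361.TL
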