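import Vale.Agent.Lib.P361.Final

set_option linter.unusedSectionVars false
set_option linter.unusedSimpArgs false

namespace Vale.Agent.Lib.P361.TL

open Matrix Finset
open scoped ComplexOrder

section Generic

variable {ι : Type*} [Fintype ι] [DecidableEq ι]

/-- `Tr exp (c K)` as a sum over eigenvalues. -/
theorem trace_exp_eq_sum (K : Matrix ι ι ℂ) (hK : K.IsHermitian) (c : ℝ) :
    trace (NormedSpace.exp ((c : ℂ) • K)) = ∑ i, ((Real.exp (c * hK.eigenvalues i) : ℝ) : ℂ) := by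
  rw [exp_smul_hermitian K hK c, Matrix.trace_mul_cycle, Unitary.coe_star_mul_self,
    Matrix.one_mul, Matrix.trace_diagonal]

/-- `Tr exp (c K)` is real for Hermitian `K`. -/
theorem trace_exp_real (K : Matrix ι ι ℂ) (hK : K.IsHermitian) (c : ℝ) :
    trace (NormedSpace.exp ((c : ℂ) • K)) =
      (((trace (NormedSpace.exp ((c : ℂ) • K))).re : ℝ) : ℂ) := by
  rw [trace_exp_eq_sum K hK c, ← Complex.ofReal_sum, Complex.ofReal_re]

/-- Shifting `K` by a real multiple of the identity. -/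
theorem trace_exp_shift (K : Matrix ι ι ℂ) (c t : ℝ) :
    (trace (NormedSpace.exp ((c : ℂ) • (K + ((t : ℝ) : ℂ) • (1 : Matrix ι ι ℂ))))).re =
      Real.exp (c * t) * (trace (NormedSpace.exp ((c : ℂ) • K))).re := by
  have h1 : (c : ℂ) • (K + ((t : ℝ) : ℂ) • (1 : Matrix ι ι ℂ)) =
      (c : ℂ) • K + diagonal (fun _ : ι => ((c * t : ℝ) : ℂ)) := by
    rw [smul_add, smul_smul, ← Matrix.smul_one_eq_diagonal]
    push_cast
    rfl
  have h2 : Commute ((c : ℂ) • K) (diagonal (fun _ : ι => ((c * t : ℝ) : ℂ))) := by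
    rw [← Matrix.smul_one_eq_diagonal]
    exact (Commute.one_right _).smul_right _
  rw [h1, Matrix.exp_add_of_commute _ _ h2, Matrix.exp_diagonal]
  have h3 : (NormedSpace.exp fun _ : ι => ((c * t : ℝ) : ℂ)) =
      fun _ : ι => ((Real.exp (c * t) : ℝ) : ℂ) := by
    funext i
    rw [Pi.coe_exp, ← Complex.exp_eq_exp_ℂ, Complex.ofReal_exp]
  rw [h3, thermo_trace_mul_diagonal, ← Finset.sum_mul, mul_comm]
  congr 1
  rw [trace, Complex.re_sum]
  rfl

end Generic

variable {Λ : Type*} [Fintype Λ] [DecidableEq Λ]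

/-- the positive semidefinite bond term `S^2 - S_x · S_y` -/
noncomputable def pbond (d : ℕ) (x y : Λ) : Matrix (Λ → Fin d) (Λ → Fin d) ℂ :=
  ((Sv d ^ 2 : ℝ) : ℂ) • (1 : Matrix (Λ → Fin d) (Λ → Fin d) ℂ) - spinDot d x y

theorem pbond_posSemidef (d : ℕ) {x y : Λ} (hxy : x ≠ y) : (pbond d x y).PosSemidef := by
  unfold pbond
  rw [spinDot_eq_bond, bond_eq_WW d hxy]
  exact (Matrix.posSemidef_conjTranspose_mul_self _).smul (by norm_num : (0 : ℝ) ≤ 1 / 2)

/-- shifted box Hamiltonian with field: `∑_bonds (S^2 - S_x · S_y) - h M` -/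
noncomputable def Kt (d N : ℕ) (h : ℝ) : Matrix (Site N → Fin d) (Site N → Fin d) ℂ :=
  (∑ x : Site N, ∑ j : Fin 3,
      if (x j : ℕ) + 1 < 2 * N + 1 then pbond d x (nbr x j) else 0) -
    (h : ℂ) • magnetization d N

/-- number of bonds of the box -/
def Bn (N : ℕ) : ℕ :=
  ∑ x : Site N, ∑ j : Fin 3, if (x j : ℕ) + 1 < 2 * N + 1 then 1 else 0

theorem Kt_eq (d N : ℕ) (h : ℝ) :
    Kt d N h = (hamiltonian d N - (h : ℂ) • magnetization d N) +
      ((Sv d ^ 2 * (Bn N : ℝ) : ℝ) : ℂ) • (1 : Matrix (Site N → Fin d) (Site N → Fin d) ℂ) := by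
  have h1 : ∀ (x : Site N) (j : Fin 3),
      (if (x j : ℕ) + 1 < 2 * N + 1 then pbond d x (nbr x j) else 0) =
      ((Sv d ^ 2 : ℝ) : ℂ) • ((if (x j : ℕ) + 1 < 2 * N + 1 then (1 : ℂ) else 0) •
          (1 : Matrix (Site N → Fin d) (Site N → Fin d) ℂ)) -
        (if (x j : ℕ) + 1 < 2 * N + 1 then spinDot d x (nbr x j) else 0) := by
    intro x j
    split_ifs
    · rw [one_smul]; rfl
    · simp
  have h2 : ((Sv d ^ 2 * (Bn N : ℝ) : ℝ) : ℂ) = ((Sv d ^ 2 : ℝ) : ℂ) *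
      ∑ x : Site N, ∑ j : Fin 3, if (x j : ℕ) + 1 < 2 * N + 1 then (1 : ℂ) else 0 := by
    unfold Bn
    push_cast
    congr 1
    refine Finset.sum_congr rfl fun x _ => Finset.sum_congr rfl fun j _ => ?_
    split_ifs <;> simp
  unfold Kt hamiltonian
  rw [h2]
  simp only [h1, Finset.sum_sub_distrib, ← Finset.smul_sum, ← Finset.sum_smul]
  rw [smul_smul]
  abel

/-- shifted partition function -/
noncomputable def Zt (d N : ℕ) (β h : ℝ) : ℝ :=
  (trace (NormedSpace.exp (((-β : ℝ) : ℂ) • Kt d N h))).re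

theorem Zt_eq (d N : ℕ) (β h : ℝ) :
    Zt d N β h = Real.exp (-β * (Sv d ^ 2 * (Bn N : ℝ))) * Zf d N β h := by
  unfold Zt
  rw [Kt_eq, trace_exp_shift]
  rfl

theorem Zt_pos (d N : ℕ) (hd : 0 < d) (β h : ℝ) : 0 < Zt d N β h := by
  rw [Zt_eq]
  exact mul_pos (Real.exp_pos _) (Zf_pos d N hd β h)

theorem Kt_hermitian (d N : ℕ) (h : ℝ) : (Kt d N h).IsHermitian := by
  rw [Kt_eq]
  refine (K_hermitian_c d N h).add ?_
  unfold Matrix.IsHermitian
  rw [conjTranspose_smul, conjTranspose_one]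
  congr 1
  exact Complex.conj_ofReal _

end Vale.Agent.Lib.P361.TL
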