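import Vale.Agent.Lib.P361.TL.Basic

namespace Vale.Agent.Lib.P361.TL

open Filter Topology

/-- the number of points of `Fin 3 → Fin (n+1)` whose `j`-th coordinate is not the last one -/
theorem count_sum_coord (n : ℕ) (j : Fin 3) :
    (∑ x : Fin 3 → Fin (n + 1), if (x j : ℕ) + 1 < n + 1 then 1 else 0) = n * (n + 1) ^ 2 := by
  classical
  rw [← (Equiv.funSplitAt j (Fin (n + 1))).symm.sum_comp, Fintype.sum_prod_type]
  have h1 : ∀ (a : Fin (n + 1)) (f : {i : Fin 3 // i ≠ j} → Fin (n + 1)),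
      (((Equiv.funSplitAt j (Fin (n + 1))).symm (a, f)) j : ℕ) = (a : ℕ) := by
    intro a f
    simp [Equiv.funSplitAt, Equiv.piSplitAt]
  simp only [h1]
  have h2 : Fintype.card ({i : Fin 3 // i ≠ j} → Fin (n + 1)) = (n + 1) ^ 2 := by
    rw [Fintype.card_fun, Fintype.card_fin]
    congr 1
    rw [Fintype.card_subtype_compl, Fintype.card_subtype_eq, Fintype.card_fin]
  simp only [Finset.sum_const, Finset.card_univ, h2, smul_eq_mul]
  rw [← Finset.mul_sum, Fin.sum_univ_castSucc]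
  simp
  ring

/-- The box `{-N..N}^3` has `3 * 2N * (2N+1)^2` nearest-neighbour bonds. -/
theorem Bn_eq (N : ℕ) : Bn N = 3 * (2 * N) * (2 * N + 1) ^ 2 := by
  unfold Bn
  rw [Finset.sum_comm]
  simp only [count_sum_coord (2 * N)]
  simp
  ring

theorem tendsto_Bn_div :
    Tendsto (fun N : ℕ => (Bn N : ℝ) / (2 * (N : ℝ) + 1) ^ 3) atTop (𝓝 3) := by
  have h : ∀ N : ℕ, (Bn N : ℝ) / (2 * (N : ℝ) + 1) ^ 3 = 3 - 3 / (2 * (N : ℝ) + 1) := by
    intro N
    rw [Bn_eq]
    have hpos : (0 : ℝ) < 2 * (N : ℝ) + 1 := by positivity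
    push_cast
    field_simp
    ring
  simp only [h]
  have h1 : Tendsto (fun N : ℕ => 2 * (N : ℝ) + 1) atTop atTop :=
    tendsto_atTop_add_const_right _ _
      (tendsto_natCast_atTop_atTop.const_mul_atTop (by norm_num : (0 : ℝ) < 2))
  have h2 : Tendsto (fun N : ℕ => 3 / (2 * (N : ℝ) + 1)) atTop (𝓝 0) :=
    tendsto_const_nhds.div_atTop h1
  simpa using tendsto_const_nhds.sub h2

end Vale.Agent.Lib.P361.TL
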