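import Vale.Agent.Lib.P361.TL.Lift

namespace Vale.Agent.Lib.P361.TL

open Matrix Finset

section

theorem factor_ne_of_inj {I Λ₀ Λ : Type*} (ι : I → Λ₀ → Λ)
    (hinj : Function.Injective (fun p : I × Λ₀ => ι p.1 p.2)) {i j : I} (hij : i ≠ j)
    (a b : Λ₀) : ι i a ≠ ι j b := by
  intro h
  have h2 := hinj (a₁ := (i, a)) (a₂ := (j, b)) h
  exact hij (congrArg Prod.fst h2)

theorem factor_inj_of_inj {I Λ₀ Λ : Type*} (ι : I → Λ₀ → Λ)
    (hinj : Function.Injective (fun p : I × Λ₀ => ι p.1 p.2)) (i : I) :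
    Function.Injective (ι i) := by
  intro a b h
  have h2 := hinj (a₁ := (i, a)) (a₂ := (i, b)) h
  exact congrArg Prod.snd h2

variable {I Λ₀ Λ : Type*} [Fintype I] [DecidableEq I] [Fintype Λ₀] [DecidableEq Λ₀]
  [Fintype Λ] [DecidableEq Λ] {d : ℕ}

omit [Fintype I] in
/-- Entry formula for the exponential of a sum of operators on disjoint blocks. -/
theorem exp_sum_lift_entry (ι : I → Λ₀ → Λ)
    (hinj : Function.Injective (fun p : I × Λ₀ => ι p.1 p.2))
    (X : Matrix (Λ₀ → Fin d) (Λ₀ → Fin d) ℂ) (s : Finset I) :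
    ∀ σ τ : Λ → Fin d,
      ((¬ ∀ y, (∀ i ∈ s, y ∉ Set.range (ι i)) → σ y = τ y) →
        NormedSpace.exp (∑ i ∈ s, lift (ι i) X) σ τ = 0) ∧
      ((∀ y, (∀ i ∈ s, y ∉ Set.range (ι i)) → σ y = τ y) →
        NormedSpace.exp (∑ i ∈ s, lift (ι i) X) σ τ =
          ∏ i ∈ s, (NormedSpace.exp X) (σ ∘ ι i) (τ ∘ ι i)) := by
  classical
  induction s using Finset.induction_on with
  | empty =>
    intro σ τ
    rw [Finset.sum_empty, NormedSpace.exp_zero, Finset.prod_empty]
    constructor
    · intro h
      have hne : σ ≠ τ := fun e => h (fun y _ => congrFun e y)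
      rw [Matrix.one_apply_ne hne]
    · intro h
      have he : σ = τ := funext fun y => h y (fun i hi => absurd hi (Finset.notMem_empty i))
      rw [he, Matrix.one_apply_eq]
  | insert j s hj ih =>
    intro σ τ
    have hjinj := factor_inj_of_inj ι hinj j
    have hcomm : Commute (lift (ι j) X) (∑ i ∈ s, lift (ι i) X) := by
      apply Commute.sum_right
      intro i hi
      have hij : j ≠ i := fun h => hj (h ▸ hi)
      exact lift_comm (ι j) (ι i) hjinj (factor_inj_of_inj ι hinj i)
        (fun a b => factor_ne_of_inj ι hinj hij a b) X X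
    have hexp : NormedSpace.exp (∑ i ∈ insert j s, lift (ι i) X) =
        lift (ι j) (NormedSpace.exp X) * NormedSpace.exp (∑ i ∈ s, lift (ι i) X) := by
      rw [Finset.sum_insert hj, Matrix.exp_add_of_commute _ _ hcomm, lift_exp (ι j) hjinj]
    rw [hexp, Matrix.mul_apply]
    constructor
    · intro hcond
      apply Finset.sum_eq_zero
      intro ρ _
      by_cases h1 : ∀ y, y ∉ Set.range (ι j) → σ y = ρ y
      · have h3 : ¬ ∀ y, (∀ i ∈ s, y ∉ Set.range (ι i)) → ρ y = τ y := by
          intro h2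
          apply hcond
          intro y hy
          have hyj : y ∉ Set.range (ι j) := hy j (Finset.mem_insert_self j s)
          have hys : ∀ i ∈ s, y ∉ Set.range (ι i) :=
            fun i hi => hy i (Finset.mem_insert_of_mem hi)
          rw [h1 y hyj, h2 y hys]
        rw [(ih ρ τ).1 h3, mul_zero]
      · have h3 : lift (ι j) (NormedSpace.exp X) σ ρ = 0 := by
          unfold lift
          rw [if_neg h1]
        rw [h3, zero_mul]
    · intro hcond
      let ρs : Λ → Fin d := fun y => if y ∈ Set.range (ι j) then τ y else σ y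
      have hρs_in : ∀ y, y ∈ Set.range (ι j) → ρs y = τ y := fun y hy => if_pos hy
      have hρs_out : ∀ y, y ∉ Set.range (ι j) → ρs y = σ y := fun y hy => if_neg hy
      rw [Finset.sum_eq_single ρs]
      · have c1 : ∀ y, y ∉ Set.range (ι j) → σ y = ρs y := fun y hy => (hρs_out y hy).symm
        have e1 : ρs ∘ ι j = τ ∘ ι j := by
          funext a
          exact hρs_in _ (Set.mem_range_self a)
        have c2 : ∀ y, (∀ i ∈ s, y ∉ Set.range (ι i)) → ρs y = τ y := by
          intro y hy
          by_cases hyj : y ∈ Set.range (ι j)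
          · exact hρs_in y hyj
          · rw [hρs_out y hyj]
            apply hcond
            intro i hi
            rcases Finset.mem_insert.mp hi with h | h
            · rw [h]; exact hyj
            · exact hy i h
        have e2 : ∀ i ∈ s, ρs ∘ ι i = σ ∘ ι i := by
          intro i hi
          funext a
          apply hρs_out
          rintro ⟨b, hb⟩
          have hij : j ≠ i := fun h => hj (h ▸ hi)
          exact factor_ne_of_inj ι hinj hij b a hb
        have h3 : lift (ι j) (NormedSpace.exp X) σ ρs =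
            (NormedSpace.exp X) (σ ∘ ι j) (τ ∘ ι j) := by
          unfold lift
          rw [if_pos c1, e1]
        rw [h3, (ih ρs τ).2 c2, Finset.prod_insert hj]
        congr 1
        exact Finset.prod_congr rfl fun i hi => by rw [e2 i hi]
      · intro ρ _ hρ
        by_cases h1 : ∀ y, y ∉ Set.range (ι j) → σ y = ρ y
        · have h3 : ¬ ∀ y, (∀ i ∈ s, y ∉ Set.range (ι i)) → ρ y = τ y := by
            intro h2
            apply hρ
            funext y
            by_cases hyj : y ∈ Set.range (ι j)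
            · rw [hρs_in y hyj]
              apply h2
              intro i hi
              rintro ⟨a, ha⟩
              obtain ⟨b, hb⟩ := hyj
              have hij : j ≠ i := fun h => hj (h ▸ hi)
              exact factor_ne_of_inj ι hinj hij b a (hb.trans ha.symm)
            · rw [hρs_out y hyj]
              exact (h1 y hyj).symm
          rw [(ih ρ τ).1 h3, mul_zero]
        · have h3 : lift (ι j) (NormedSpace.exp X) σ ρ = 0 := by
            unfold lift
            rw [if_neg h1]
          rw [h3, zero_mul]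
      · intro h
        exact absurd (Finset.mem_univ _) h

/-- Counting lemma: a sum over all configurations of a product of block functions. -/
theorem sum_prod_comp_blocks (ι : I → Λ₀ → Λ)
    (hinj : Function.Injective (fun p : I × Λ₀ => ι p.1 p.2))
    (g : (Λ₀ → Fin d) → ℂ) :
    ∑ σ : Λ → Fin d, ∏ i, g (σ ∘ ι i) =
      (d : ℂ) ^ (Fintype.card Λ - Fintype.card I * Fintype.card Λ₀) *
        (∑ ρ, g ρ) ^ Fintype.card I := by
  classical
  let e : I × Λ₀ → Λ := fun p => ι p.1 p.2
  let e1 : (I × Λ₀) ⊕ (↥(Set.range e)ᶜ) ≃ Λ :=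
    (Equiv.sumCongr (Equiv.ofInjective e hinj) (Equiv.refl _)).trans
      (Equiv.Set.sumCompl (Set.range e))
  let Φ : (Λ → Fin d) ≃ (I → Λ₀ → Fin d) × (↥(Set.range e)ᶜ → Fin d) :=
    ((Equiv.arrowCongr e1.symm (Equiv.refl (Fin d))).trans
      (Equiv.sumArrowEquivProdArrow _ _ _)).trans
      (Equiv.prodCongr (Equiv.curry _ _ _) (Equiv.refl _))
  have hΦ : ∀ (σ : Λ → Fin d) (i : I), (Φ σ).1 i = σ ∘ ι i := by
    intro σ i
    funext a
    simp [Φ, e1, e, Equiv.arrowCongr, Equiv.sumArrowEquivProdArrow]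
  have hcard : Fintype.card (↥(Set.range e)ᶜ) =
      Fintype.card Λ - Fintype.card I * Fintype.card Λ₀ := by
    rw [Fintype.card_compl_set, Set.card_range_of_injective hinj, Fintype.card_prod]
  have h1 : ∑ σ : Λ → Fin d, ∏ i, g (σ ∘ ι i) =
      ∑ x : (I → Λ₀ → Fin d) × (↥(Set.range e)ᶜ → Fin d), ∏ i, g (x.1 i) := by
    apply Fintype.sum_equiv Φ
    intro σ
    exact Finset.prod_congr rfl fun i _ => by rw [hΦ σ i]
  rw [h1, Fintype.sum_prod_type]
  simp only [Finset.sum_const, Finset.card_univ, nsmul_eq_mul]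
  rw [← Finset.mul_sum, ← Fintype.prod_sum, Finset.prod_const, Finset.card_univ,
    Fintype.card_fun, Fintype.card_fin, hcard]
  push_cast
  ring

end

/-- Trace factorization: the exponential of a sum of copies of `X` acting on disjoint blocks. -/
theorem trace_exp_sum_lift {I Λ₀ Λ : Type*} [Fintype I] [DecidableEq I] [Fintype Λ₀]
    [DecidableEq Λ₀] [Fintype Λ] [DecidableEq Λ] {d : ℕ} (ι : I → Λ₀ → Λ)
    (hinj : Function.Injective (fun p : I × Λ₀ => ι p.1 p.2))
    (X : Matrix (Λ₀ → Fin d) (Λ₀ → Fin d) ℂ) :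
    trace (NormedSpace.exp (∑ i, lift (ι i) X)) =
      (d : ℂ) ^ (Fintype.card Λ - Fintype.card I * Fintype.card Λ₀) *
        (trace (NormedSpace.exp X)) ^ Fintype.card I := by
  have hentry : ∀ σ : Λ → Fin d, NormedSpace.exp (∑ i, lift (ι i) X) σ σ =
      ∏ i, (NormedSpace.exp X) (σ ∘ ι i) (σ ∘ ι i) := fun σ =>
    ((exp_sum_lift_entry ι hinj X Finset.univ) σ σ).2 (fun y _ => rfl)
  have h1 : trace (NormedSpace.exp (∑ i, lift (ι i) X)) =
      ∑ σ : Λ → Fin d, ∏ i, (NormedSpace.exp X) (σ ∘ ι i) (σ ∘ ι i) := by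
    rw [Matrix.trace]
    exact Finset.sum_congr rfl fun σ _ => by rw [Matrix.diag_apply, hentry σ]
  rw [h1, sum_prod_comp_blocks ι hinj (fun ρ => (NormedSpace.exp X) ρ ρ)]
  rfl

end Vale.Agent.Lib.P361.TL
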