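import Vale.Agent.Lib.P361.TL.LiftDef

namespace Vale.Agent.Lib.P361.TL

open Matrix Finset

set_option linter.unusedSectionVars false

section

variable {Λ₀ Λ : Type*} [Fintype Λ₀] [DecidableEq Λ₀] [Fintype Λ] [DecidableEq Λ] {d : ℕ}

theorem lift_zero (ι : Λ₀ → Λ) :
    lift ι (0 : Matrix (Λ₀ → Fin d) (Λ₀ → Fin d) ℂ) = 0 := by
  ext σ τ
  simp [lift]

theorem lift_add (ι : Λ₀ → Λ) (A B : Matrix (Λ₀ → Fin d) (Λ₀ → Fin d) ℂ) :
    lift ι (A + B) = lift ι A + lift ι B := by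
  ext σ τ
  simp only [lift, Matrix.add_apply]
  split_ifs <;> simp

theorem lift_sub (ι : Λ₀ → Λ) (A B : Matrix (Λ₀ → Fin d) (Λ₀ → Fin d) ℂ) :
    lift ι (A - B) = lift ι A - lift ι B := by
  ext σ τ
  simp only [lift, Matrix.sub_apply]
  split_ifs <;> simp

theorem lift_smul (ι : Λ₀ → Λ) (c : ℂ) (A : Matrix (Λ₀ → Fin d) (Λ₀ → Fin d) ℂ) :
    lift ι (c • A) = c • lift ι A := by
  ext σ τ
  simp only [lift, Matrix.smul_apply]
  split_ifs <;> simp

theorem lift_sum {κ : Type*} (ι : Λ₀ → Λ) (s : Finset κ)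
    (f : κ → Matrix (Λ₀ → Fin d) (Λ₀ → Fin d) ℂ) :
    lift ι (∑ k ∈ s, f k) = ∑ k ∈ s, lift ι (f k) := by
  classical
  induction s using Finset.induction_on with
  | empty => simp [lift_zero]
  | insert a s ha ih => rw [Finset.sum_insert ha, Finset.sum_insert ha, lift_add, ih]

theorem lift_one (ι : Λ₀ → Λ) :
    lift ι (1 : Matrix (Λ₀ → Fin d) (Λ₀ → Fin d) ℂ) = 1 := by
  ext σ τ
  simp only [lift]
  by_cases hστ : σ = τ
  · subst hστ
    simp
  · rw [Matrix.one_apply_ne hστ]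
    split_ifs with hP
    · have hne : σ ∘ ι ≠ τ ∘ ι := by
        intro hc
        apply hστ
        funext y
        by_cases hy : y ∈ Set.range ι
        · obtain ⟨a, rfl⟩ := hy
          exact congrFun hc a
        · exact hP y hy
      rw [Matrix.one_apply_ne hne]
    · rfl

/-- The action of a lifted operator on a vector. -/
theorem lift_mulVec (ι : Λ₀ → Λ) (hι : Function.Injective ι)
    (A : Matrix (Λ₀ → Fin d) (Λ₀ → Fin d) ℂ) (ψ : (Λ → Fin d) → ℂ) (σ : Λ → Fin d) :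
    (lift ι A *ᵥ ψ) σ = ∑ ρ : Λ₀ → Fin d, A (σ ∘ ι) ρ * ψ (Function.extend ι ρ σ) := by
  have h1 : ∀ ρ : Λ₀ → Fin d, A (σ ∘ ι) ρ * ψ (Function.extend ι ρ σ) =
      ∑ τ : Λ → Fin d, if τ = Function.extend ι ρ σ then A (σ ∘ ι) ρ * ψ τ else 0 := by
    intro ρ
    rw [Finset.sum_ite_eq']
    simp
  simp only [h1]
  rw [Finset.sum_comm]
  simp only [Matrix.mulVec, dotProduct]
  refine Finset.sum_congr rfl fun τ _ => ?_
  simp only [lift]
  by_cases hP : ∀ y, y ∉ Set.range ι → σ y = τ y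
  · rw [if_pos hP]
    have hτ : τ = Function.extend ι (τ ∘ ι) σ := by
      funext y
      by_cases hy : y ∈ Set.range ι
      · obtain ⟨a, rfl⟩ := hy
        rw [hι.extend_apply]
        rfl
      · rw [Function.extend_apply' _ _ _ (fun h => hy h)]
        exact (hP y hy).symm
    rw [Finset.sum_eq_single (τ ∘ ι)]
    · rw [if_pos hτ]
    · intro ρ _ hρ
      rw [if_neg]
      intro hcon
      apply hρ
      funext a
      have := congrFun hcon (ι a)
      rw [hι.extend_apply] at this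
      exact this.symm
    · intro h; exact absurd (Finset.mem_univ _) h
  · rw [if_neg hP, zero_mul]
    symm
    apply Finset.sum_eq_zero
    intro ρ _
    rw [if_neg]
    intro hcon
    apply hP
    intro y hy
    rw [hcon, Function.extend_apply' _ _ _ (fun h => hy h)]

theorem extend_comp_self (ι : Λ₀ → Λ) (hι : Function.Injective ι) (ρ : Λ₀ → Fin d)
    (σ : Λ → Fin d) : Function.extend ι ρ σ ∘ ι = ρ := by
  funext a
  simp [hι.extend_apply]

theorem extend_extend (ι : Λ₀ → Λ) (hι : Function.Injective ι) (ρ ρ' : Λ₀ → Fin d)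
    (σ : Λ → Fin d) :
    Function.extend ι ρ' (Function.extend ι ρ σ) = Function.extend ι ρ' σ := by
  funext y
  by_cases hy : y ∈ Set.range ι
  · obtain ⟨a, rfl⟩ := hy
    rw [hι.extend_apply, hι.extend_apply]
  · rw [Function.extend_apply' _ _ _ (fun h => hy h), Function.extend_apply' _ _ _ (fun h => hy h),
      Function.extend_apply' _ _ _ (fun h => hy h)]

theorem lift_mul (ι : Λ₀ → Λ) (hι : Function.Injective ι)
    (A B : Matrix (Λ₀ → Fin d) (Λ₀ → Fin d) ℂ) :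
    lift ι (A * B) = lift ι A * lift ι B := by
  apply Vale.Agent.Lib.P361.matrix_ext_mulVec
  intro ψ
  funext σ
  rw [← Matrix.mulVec_mulVec, lift_mulVec ι hι, lift_mulVec ι hι]
  simp only [lift_mulVec ι hι, extend_comp_self ι hι, extend_extend ι hι, Matrix.mul_apply,
    Finset.mul_sum, Finset.sum_mul]
  rw [Finset.sum_comm]
  refine Finset.sum_congr rfl fun k _ => Finset.sum_congr rfl fun l _ => ?_
  ring

theorem lift_siteOp (ι : Λ₀ → Λ) (hι : Function.Injective ι) (x : Λ₀)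
    (a : Matrix (Fin d) (Fin d) ℂ) :
    lift ι (siteOp x a) = siteOp (ι x) a := by
  ext σ τ
  simp only [lift, siteOp, Function.comp_apply]
  by_cases hQ : ∀ z, z ≠ ι x → σ z = τ z
  · have hP : ∀ y, y ∉ Set.range ι → σ y = τ y := by
      intro y hy
      apply hQ
      rintro rfl
      exact hy ⟨x, rfl⟩
    have hR : ∀ y, y ≠ x → σ (ι y) = τ (ι y) := by
      intro y hy
      apply hQ
      intro hc
      exact hy (hι hc)
    rw [if_pos hP, if_pos hR, if_pos hQ]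
  · rw [if_neg hQ]
    split_ifs with hP hR
    · exfalso
      apply hQ
      intro z hz
      by_cases hzr : z ∈ Set.range ι
      · obtain ⟨y, rfl⟩ := hzr
        apply hR
        rintro rfl
        exact hz rfl
      · exact hP z hzr
    · rfl
    · rfl

/-- `lift ι` as a ring homomorphism (for injective `ι`). -/
noncomputable def liftRingHom (ι : Λ₀ → Λ) (hι : Function.Injective ι) :
    Matrix (Λ₀ → Fin d) (Λ₀ → Fin d) ℂ →+* Matrix (Λ → Fin d) (Λ → Fin d) ℂ where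
  toFun := lift ι
  map_one' := lift_one ι
  map_mul' := lift_mul ι hι
  map_zero' := lift_zero ι
  map_add' := lift_add ι

theorem continuous_lift (ι : Λ₀ → Λ) :
    Continuous (lift (d := d) ι : Matrix (Λ₀ → Fin d) (Λ₀ → Fin d) ℂ →
      Matrix (Λ → Fin d) (Λ → Fin d) ℂ) := by
  refine continuous_matrix fun σ τ => ?_
  simp only [lift]
  split_ifs
  · exact (continuous_apply (τ ∘ ι)).comp (continuous_apply (σ ∘ ι))
  · exact continuous_const

theorem lift_exp (ι : Λ₀ → Λ) (hι : Function.Injective ι)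
    (A : Matrix (Λ₀ → Fin d) (Λ₀ → Fin d) ℂ) :
    lift ι (NormedSpace.exp A) = NormedSpace.exp (lift ι A) :=
  open scoped Matrix.Norms.Operator in
  NormedSpace.map_exp (liftRingHom (d := d) ι hι) (continuous_lift ι) A

theorem extend_comp_of_disjoint {Λ₁ : Type*} (ι₀ : Λ₀ → Λ) (ι₁ : Λ₁ → Λ)
    (hdisj : ∀ a b, ι₀ a ≠ ι₁ b) (ρ : Λ₀ → Fin d) (σ : Λ → Fin d) :
    Function.extend ι₀ ρ σ ∘ ι₁ = σ ∘ ι₁ := by
  funext b
  simp only [Function.comp_apply]
  rw [Function.extend_apply']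
  rintro ⟨a, ha⟩
  exact hdisj a b ha

theorem extend_extend_comm {Λ₁ : Type*} (ι₀ : Λ₀ → Λ) (ι₁ : Λ₁ → Λ)
    (h0 : Function.Injective ι₀) (h1 : Function.Injective ι₁) (hdisj : ∀ a b, ι₀ a ≠ ι₁ b)
    (ρ₀ : Λ₀ → Fin d) (ρ₁ : Λ₁ → Fin d) (σ : Λ → Fin d) :
    Function.extend ι₁ ρ₁ (Function.extend ι₀ ρ₀ σ) =
      Function.extend ι₀ ρ₀ (Function.extend ι₁ ρ₁ σ) := by
  funext y
  by_cases hy0 : ∃ a, ι₀ a = y
  · obtain ⟨a, rfl⟩ := hy0
    have hn1 : ¬ ∃ b, ι₁ b = ι₀ a := by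
      rintro ⟨b, hb⟩
      exact hdisj a b hb.symm
    rw [Function.extend_apply' _ _ _ hn1, h0.extend_apply, h0.extend_apply]
  · by_cases hy1 : ∃ b, ι₁ b = y
    · obtain ⟨b, rfl⟩ := hy1
      rw [h1.extend_apply, Function.extend_apply' _ _ _ hy0, h1.extend_apply]
    · rw [Function.extend_apply' _ _ _ hy1, Function.extend_apply' _ _ _ hy0,
        Function.extend_apply' _ _ _ hy0, Function.extend_apply' _ _ _ hy1]

theorem lift_comm {Λ₁ : Type*} [Fintype Λ₁] [DecidableEq Λ₁] (ι₀ : Λ₀ → Λ) (ι₁ : Λ₁ → Λ)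
    (h0 : Function.Injective ι₀) (h1 : Function.Injective ι₁) (hdisj : ∀ a b, ι₀ a ≠ ι₁ b)
    (A : Matrix (Λ₀ → Fin d) (Λ₀ → Fin d) ℂ) (B : Matrix (Λ₁ → Fin d) (Λ₁ → Fin d) ℂ) :
    lift ι₀ A * lift ι₁ B = lift ι₁ B * lift ι₀ A := by
  apply Vale.Agent.Lib.P361.matrix_ext_mulVec
  intro ψ
  funext σ
  rw [← Matrix.mulVec_mulVec, ← Matrix.mulVec_mulVec, lift_mulVec ι₀ h0, lift_mulVec ι₁ h1]
  simp only [lift_mulVec ι₀ h0, lift_mulVec ι₁ h1, extend_comp_of_disjoint ι₀ ι₁ hdisj,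
    extend_comp_of_disjoint ι₁ ι₀ (fun b a => (hdisj a b).symm), Finset.mul_sum]
  rw [Finset.sum_comm]
  refine Finset.sum_congr rfl fun k _ => Finset.sum_congr rfl fun l _ => ?_
  rw [extend_extend_comm ι₀ ι₁ h0 h1 hdisj]
  ring

end

end Vale.Agent.Lib.P361.TL
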