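import Vale.Agent.Lib.P361.Embed

namespace Vale.Agent.Lib.P361.TL

open Matrix

open Classical in
/-- The operator `A` on the sites `Λ₀`, acting on the image of `ι` inside `Λ` (identity on the
other sites). -/
noncomputable def lift {Λ₀ Λ : Type*} {d : ℕ} (ι : Λ₀ → Λ)
    (A : Matrix (Λ₀ → Fin d) (Λ₀ → Fin d) ℂ) : Matrix (Λ → Fin d) (Λ → Fin d) ℂ :=
  fun σ τ => if ∀ y, y ∉ Set.range ι → σ y = τ y then A (σ ∘ ι) (τ ∘ ι) else 0

end Vale.Agent.Lib.P361.TL
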