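import Vale.Agent.Lib.P361.TL.Sub
import Vale.Agent.Lib.P361.TL.Conv
import Vale.Agent.Lib.P361.TL.Count
import Vale.Agent.Lib.P361.helper5.FinalLimsup

set_option linter.unusedSectionVars false
set_option linter.unusedSimpArgs false

namespace Vale.Agent.Lib.P361.TL

open Matrix Finset Filter Topology

theorem card_blocks (N L : ℕ) :
    Fintype.card (Fin 3 → Fin ((2 * N + 1) / (2 * L + 1))) = ((2 * N + 1) / (2 * L + 1)) ^ 3 := by
  simp

theorem Unc_cast (N L : ℕ) :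
    ((Unc N L : ℕ) : ℝ) = (2 * (N : ℝ) + 1) ^ 3 -
      ((((2 * N + 1) / (2 * L + 1) : ℕ) : ℝ) * (2 * (L : ℝ) + 1)) ^ 3 := by
  have h1 : Unc N L = (2 * N + 1) ^ 3 - ((2 * N + 1) / (2 * L + 1) * (2 * L + 1)) ^ 3 := by
    unfold Unc
    simp only [Fintype.card_fun, Fintype.card_fin, mul_pow]
  have h2 : ((2 * N + 1) / (2 * L + 1) * (2 * L + 1)) ^ 3 ≤ (2 * N + 1) ^ 3 :=
    Nat.pow_le_pow_left (Nat.div_mul_le_self _ _) 3
  rw [h1, Nat.cast_sub h2]
  push_cast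
  ring

/-- logarithmic form of the subadditivity -/
theorem log_Zt_sub (d N L : ℕ) (hd : 0 < d) (β h : ℝ) (hβ : 0 < β) :
    Real.log (Zt d N β h) ≤
      ((((2 * N + 1) / (2 * L + 1) : ℕ) : ℝ)) ^ 3 * Real.log (Zt d L β h) +
        (Unc N L : ℝ) * (β * (|h| * Sv d) + Real.log d) := by
  have hsub := Zt_sub d N L β h hβ.le
  have hZN := Zt_pos d N hd β h
  have hZL := Zt_pos d L hd β h
  have hdpos : (0 : ℝ) < d := by exact_mod_cast hd
  have hpow1 : (0 : ℝ) < (d : ℝ) ^ Unc N L := pow_pos hdpos _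
  have hpow2 : (0 : ℝ) < Zt d L β h ^ Fintype.card (Fin 3 → Fin ((2 * N + 1) / (2 * L + 1))) :=
    pow_pos hZL _
  have hlog := Real.log_le_log hZN hsub
  rw [Real.log_mul (Real.exp_pos _).ne' (mul_pos hpow1 hpow2).ne', Real.log_exp,
    Real.log_mul hpow1.ne' hpow2.ne', Real.log_pow, Real.log_pow, card_blocks] at hlog
  push_cast at hlog
  linarith

/-- The normalised logarithm of the shifted partition function converges. -/
theorem tendsto_log_Zt (d : ℕ) (hd : 0 < d) (β h : ℝ) (hβ : 0 < β) :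
    ∃ l, Tendsto (fun N : ℕ => Real.log (Zt d N β h) / (2 * (N : ℝ) + 1) ^ 3) atTop (𝓝 l) := by
  obtain ⟨Cp, hCp⟩ := pressure_bdd d hd β hβ h
  have hSv0 : 0 ≤ Sv d ^ 2 := sq_nonneg _
  refine tendsto_of_cube_subadditive _ (β * (|h| * Sv d) + Real.log d)
    (β * Cp + 3 * (β * Sv d ^ 2)) ?_ ?_
  · intro N
    have hV : (0 : ℝ) < (2 * (N : ℝ) + 1) ^ 3 := by positivity
    have hZf := Zf_pos d N hd β h
    have hlog : Real.log (Zt d N β h) =
        Real.log (Zf d N β h) - β * (Sv d ^ 2 * (Bn N : ℝ)) := by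
      rw [Zt_eq, Real.log_mul (Real.exp_pos _).ne' hZf.ne', Real.log_exp]
      ring
    have hp : |Real.log (Zf d N β h)| ≤ Cp * (β * (2 * (N : ℝ) + 1) ^ 3) := by
      have := hCp N
      rw [pressure_eq, abs_div, abs_of_pos (mul_pos hβ hV), div_le_iff₀ (mul_pos hβ hV)] at this
      exact this
    have hBn : (Bn N : ℝ) ≤ 3 * (2 * (N : ℝ) + 1) ^ 3 := by
      have h1 : Bn N ≤ 3 * (2 * N + 1) ^ 3 := by
        rw [Bn_eq]
        have : 2 * N ≤ 2 * N + 1 := by omega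
        calc 3 * (2 * N) * (2 * N + 1) ^ 2 ≤ 3 * (2 * N + 1) * (2 * N + 1) ^ 2 :=
              Nat.mul_le_mul_right _ (Nat.mul_le_mul_left _ this)
          _ = 3 * (2 * N + 1) ^ 3 := by ring
      have h2 : ((Bn N : ℕ) : ℝ) ≤ ((3 * (2 * N + 1) ^ 3 : ℕ) : ℝ) := by exact_mod_cast h1
      push_cast at h2
      exact h2
    have hBn0 : (0 : ℝ) ≤ (Bn N : ℝ) := by positivity
    rw [abs_div, abs_of_pos hV, div_le_iff₀ hV, hlog]
    have h3 : |Real.log (Zf d N β h) - β * (Sv d ^ 2 * (Bn N : ℝ))| ≤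
        |Real.log (Zf d N β h)| + |β * (Sv d ^ 2 * (Bn N : ℝ))| := abs_sub _ _
    have h4 : |β * (Sv d ^ 2 * (Bn N : ℝ))| = β * (Sv d ^ 2 * (Bn N : ℝ)) :=
      abs_of_nonneg (mul_nonneg hβ.le (mul_nonneg hSv0 hBn0))
    have h5 : β * (Sv d ^ 2 * (Bn N : ℝ)) ≤ β * (Sv d ^ 2 * (3 * (2 * (N : ℝ) + 1) ^ 3)) :=
      mul_le_mul_of_nonneg_left (mul_le_mul_of_nonneg_left hBn hSv0) hβ.le
    calc |Real.log (Zf d N β h) - β * (Sv d ^ 2 * (Bn N : ℝ))|
        ≤ Cp * (β * (2 * (N : ℝ) + 1) ^ 3) + β * (Sv d ^ 2 * (3 * (2 * (N : ℝ) + 1) ^ 3)) := by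
          linarith
      _ = (β * Cp + 3 * (β * Sv d ^ 2)) * (2 * (N : ℝ) + 1) ^ 3 := by ring
  · intro N L
    have hVN : (0 : ℝ) < (2 * (N : ℝ) + 1) ^ 3 := by positivity
    have hVL : (0 : ℝ) < (2 * (L : ℝ) + 1) ^ 3 := by positivity
    have hsub := log_Zt_sub d N L hd β h hβ
    rw [Unc_cast] at hsub
    have e1 : (2 * (N : ℝ) + 1) ^ 3 * (Real.log (Zt d N β h) / (2 * (N : ℝ) + 1) ^ 3) =
        Real.log (Zt d N β h) := by
      field_simp
    have e2 : ((((2 * N + 1) / (2 * L + 1) : ℕ) : ℝ) * (2 * (L : ℝ) + 1)) ^ 3 *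
        (Real.log (Zt d L β h) / (2 * (L : ℝ) + 1) ^ 3) =
        ((((2 * N + 1) / (2 * L + 1) : ℕ) : ℝ)) ^ 3 * Real.log (Zt d L β h) := by
      field_simp
    rw [e1, e2]
    exact hsub

/-- **Existence of the thermodynamic limit** of the pressure of the Heisenberg ferromagnet along
the boxes `{-N..N}^3`. -/
theorem pressure_tendsto (d : ℕ) (hd : 0 < d) (β h : ℝ) (hβ : 0 < β) :
    ∃ p, Tendsto (fun N : ℕ => pressure d N β h) atTop (𝓝 p) := by
  obtain ⟨l, hl⟩ := tendsto_log_Zt d hd β h hβ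
  refine ⟨l / β + Sv d ^ 2 * 3, ?_⟩
  have heq : (fun N : ℕ => pressure d N β h) = fun N : ℕ =>
      (Real.log (Zt d N β h) / (2 * (N : ℝ) + 1) ^ 3) / β +
        Sv d ^ 2 * ((Bn N : ℝ) / (2 * (N : ℝ) + 1) ^ 3) := by
    funext N
    have hV : (0 : ℝ) < (2 * (N : ℝ) + 1) ^ 3 := by positivity
    have hZf := Zf_pos d N hd β h
    rw [pressure_eq, Zt_eq, Real.log_mul (Real.exp_pos _).ne' hZf.ne', Real.log_exp]
    field_simp
    ring
  rw [heq]
  exact (hl.div_const β).add (tendsto_Bn_div.const_mul (Sv d ^ 2))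

/-- **One-sided Bloch law, fully unconditional**: the thermodynamic limit `p β h` of the pressure
exists, it has a right derivative `m β` in the field at zero field (the spontaneous
magnetization), and `liminf β^{3/2} (S - m β)` is at least the Bloch coefficient. -/
theorem bloch_exists (d : ℕ) (hd : 2 ≤ d) :
    ∃ p : ℝ → ℝ → ℝ, ∃ m : ℝ → ℝ,
      (∀ β, 0 < β → ∀ h, Tendsto (fun N : ℕ => pressure d N β h) atTop (𝓝 (p β h))) ∧
      (∀ β, 0 < β → HasDerivWithinAt (p β) (m β) (Set.Ici 0) 0) ∧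
      ∀ c, c < (riemannZeta (3 / 2)).re /
          (8 * Real.pi ^ (3 / 2 : ℝ) * (((d : ℝ) - 1) / 2) ^ (3 / 2 : ℝ)) →
        ∀ᶠ β in atTop, c ≤ β ^ (3 / 2 : ℝ) * (((d : ℝ) - 1) / 2 - m β) := by
  refine ⟨fun β h => limsup (fun N : ℕ => pressure d N β h) atTop,
    fun β => derivWithin (fun h => limsup (fun N : ℕ => pressure d N β h) atTop) (Set.Ici 0) 0,
    ?_, ?_, ?_⟩
  · intro β hβ h
    obtain ⟨l, hl⟩ := pressure_tendsto d (by omega) β h hβ
    have e : limsup (fun N : ℕ => pressure d N β h) atTop = l := hl.limsup_eq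
    show Tendsto (fun N : ℕ => pressure d N β h) atTop
      (𝓝 (limsup (fun N : ℕ => pressure d N β h) atTop))
    rw [e]
    exact hl
  · intro β hβ
    exact limsup_pressure_hasDerivWithinAt d (by omega) β hβ
  · exact bloch_upper_limsup d hd

end Vale.Agent.Lib.P361.TL
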