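import Vale.Agent.Lib.P361.TL.Basic
import Vale.Agent.Lib.P361.TL.Mono
import Vale.Agent.Lib.P361.TL.Factor

set_option linter.unusedSectionVars false
set_option linter.unusedSimpArgs false

namespace Vale.Agent.Lib.P361.TL

open Matrix Finset
open scoped ComplexOrder

/-- The site of the big box with block coordinates `c` and local coordinates `x`. -/
def blockSite (N L : ℕ) (c : Fin 3 → Fin ((2 * N + 1) / (2 * L + 1))) (x : Site L) : Site N :=
  fun j => ⟨(c j : ℕ) * (2 * L + 1) + (x j : ℕ), by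
    have h1 := (c j).isLt
    have h2 := (x j).isLt
    have h3 := Nat.div_mul_le_self (2 * N + 1) (2 * L + 1)
    calc (c j : ℕ) * (2 * L + 1) + (x j : ℕ) < (c j : ℕ) * (2 * L + 1) + (2 * L + 1) := by omega
      _ = ((c j : ℕ) + 1) * (2 * L + 1) := by ring
      _ ≤ (2 * N + 1) / (2 * L + 1) * (2 * L + 1) := Nat.mul_le_mul_right _ h1
      _ ≤ 2 * N + 1 := h3⟩

theorem blockSite_val (N L : ℕ) (c : Fin 3 → Fin ((2 * N + 1) / (2 * L + 1))) (x : Site L)
    (j : Fin 3) : (blockSite N L c x j : ℕ) = (c j : ℕ) * (2 * L + 1) + (x j : ℕ) := rfl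

theorem blockSite_injective (N L : ℕ) :
    Function.Injective (fun p : (Fin 3 → Fin ((2 * N + 1) / (2 * L + 1))) × Site L =>
      blockSite N L p.1 p.2) := by
  rintro ⟨c, x⟩ ⟨c', x'⟩ h
  have hj : ∀ j, (c j : ℕ) = c' j ∧ (x j : ℕ) = x' j := by
    intro j
    have h0 : (blockSite N L c x j : ℕ) = (blockSite N L c' x' j : ℕ) := by
      have := congrFun h j
      exact congrArg Fin.val this
    rw [blockSite_val, blockSite_val] at h0
    have h2 := (x j).isLt
    have h3 := (x' j).isLt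
    have e1 : ((c j : ℕ) * (2 * L + 1) + (x j : ℕ)) / (2 * L + 1) = c j := by
      rw [Nat.mul_comm, Nat.mul_add_div (by omega), Nat.div_eq_of_lt h2, add_zero]
    have e2 : ((c' j : ℕ) * (2 * L + 1) + (x' j : ℕ)) / (2 * L + 1) = c' j := by
      rw [Nat.mul_comm, Nat.mul_add_div (by omega), Nat.div_eq_of_lt h3, add_zero]
    have hc : (c j : ℕ) = c' j := by rw [← e1, ← e2, h0]
    refine ⟨hc, ?_⟩
    rw [hc] at h0
    omega
  refine Prod.ext (funext fun j => Fin.ext (hj j).1) (funext fun j => Fin.ext (hj j).2)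

theorem blockSite_injective_left (N L : ℕ) (c : Fin 3 → Fin ((2 * N + 1) / (2 * L + 1))) :
    Function.Injective (blockSite N L c) := by
  intro x x' h
  have := blockSite_injective N L (a₁ := (c, x)) (a₂ := (c, x')) h
  exact (Prod.ext_iff.mp this).2

theorem blockSite_nbr (N L : ℕ) (c : Fin 3 → Fin ((2 * N + 1) / (2 * L + 1))) (x : Site L)
    (j : Fin 3) (hj : (x j : ℕ) + 1 < 2 * L + 1) :
    (blockSite N L c x j : ℕ) + 1 < 2 * N + 1 ∧
      blockSite N L c (nbr x j) = nbr (blockSite N L c x) j := by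
  have hlt : (blockSite N L c x j : ℕ) + 1 < 2 * N + 1 := by
    rw [blockSite_val]
    have h1 := (c j).isLt
    have h3 := Nat.div_mul_le_self (2 * N + 1) (2 * L + 1)
    calc (c j : ℕ) * (2 * L + 1) + (x j : ℕ) + 1 < (c j : ℕ) * (2 * L + 1) + (2 * L + 1) := by
          omega
      _ = ((c j : ℕ) + 1) * (2 * L + 1) := by ring
      _ ≤ (2 * N + 1) / (2 * L + 1) * (2 * L + 1) := Nat.mul_le_mul_right _ h1
      _ ≤ 2 * N + 1 := h3
  refine ⟨hlt, ?_⟩
  have e1 : nbr x j = Function.update x j ⟨(x j : ℕ) + 1, hj⟩ := dif_pos hj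
  have e2 : nbr (blockSite N L c x) j =
      Function.update (blockSite N L c x) j ⟨(blockSite N L c x j : ℕ) + 1, hlt⟩ := dif_pos hlt
  rw [e1, e2]
  funext k
  apply Fin.ext
  by_cases hk : k = j
  · subst hk
    rw [blockSite_val, Function.update_self, Function.update_self]
    simp only [blockSite_val]
    ring
  · rw [blockSite_val, Function.update_of_ne hk, Function.update_of_ne hk, blockSite_val]

section LiftBond

variable {Λ₀ Λ : Type*} [Fintype Λ₀] [DecidableEq Λ₀] [Fintype Λ] [DecidableEq Λ]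

theorem lift_pbond (d : ℕ) (ι : Λ₀ → Λ) (hι : Function.Injective ι) (x y : Λ₀) :
    lift ι (pbond d x y) = pbond d (ι x) (ι y) := by
  unfold pbond spinDot
  rw [lift_sub, lift_smul, lift_one, lift_add, lift_add, lift_mul ι hι, lift_mul ι hι,
    lift_mul ι hι]
  simp only [lift_siteOp ι hι]

end LiftBond

theorem lift_Kt (d N L : ℕ) (h : ℝ) (c : Fin 3 → Fin ((2 * N + 1) / (2 * L + 1))) :
    lift (blockSite N L c) (Kt d L h) =
      (∑ x : Site L, ∑ j : Fin 3, if (x j : ℕ) + 1 < 2 * L + 1 then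
          pbond d (blockSite N L c x) (nbr (blockSite N L c x) j) else 0) -
        (h : ℂ) • ∑ x : Site L, siteOp (blockSite N L c x) (spinZ d) := by
  have hι : Function.Injective (blockSite N L c) := blockSite_injective_left N L c
  unfold Kt magnetization
  rw [lift_sub, lift_smul, lift_sum, lift_sum]
  congr 1
  · refine Finset.sum_congr rfl fun x _ => ?_
    rw [lift_sum]
    refine Finset.sum_congr rfl fun j _ => ?_
    split_ifs with hj
    · rw [lift_pbond d _ hι, (blockSite_nbr N L c x j hj).2]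
    · exact lift_zero _
  · congr 1
    refine Finset.sum_congr rfl fun x _ => ?_
    exact lift_siteOp _ hι x _

/-- The decoupled Hamiltonian: bonds inside the blocks only, field on block sites only. -/
noncomputable def Kblock (d N L : ℕ) (h : ℝ) : Matrix (Site N → Fin d) (Site N → Fin d) ℂ :=
  ∑ c : Fin 3 → Fin ((2 * N + 1) / (2 * L + 1)), lift (blockSite N L c) (Kt d L h)

/-- number of sites outside all blocks -/
def Unc (N L : ℕ) : ℕ :=
  Fintype.card (Site N) -
    Fintype.card (Fin 3 → Fin ((2 * N + 1) / (2 * L + 1))) * Fintype.card (Site L)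

theorem sum_eq_sum_image_add_compl {α β M : Type*} [Fintype α] [Fintype β] [DecidableEq β]
    [AddCommMonoid M] (f : α → β) (hf : Function.Injective f) (F : β → M) :
    ∑ y, F y = ∑ p, F (f p) + ∑ y ∈ (Finset.univ.image f)ᶜ, F y := by
  rw [← Finset.sum_image (s := Finset.univ) (g := f) (f := F) (fun a _ b _ hab => hf hab)]
  exact (Finset.sum_add_sum_compl _ _).symm

theorem posSemidef_sum {n κ : Type*} [Fintype n] (s : Finset κ) (f : κ → Matrix n n ℂ)
    (hf : ∀ k ∈ s, (f k).PosSemidef) : (∑ k ∈ s, f k).PosSemidef :=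
  Finset.sum_induction f (fun A => A.PosSemidef) (fun _ _ ha hb => ha.add hb)
    Matrix.PosSemidef.zero hf

theorem pterm_posSemidef (d N : ℕ) (y : Site N) (j : Fin 3) :
    (if (y j : ℕ) + 1 < 2 * N + 1 then pbond d y (nbr y j) else 0 :
      Matrix (Site N → Fin d) (Site N → Fin d) ℂ).PosSemidef := by
  split_ifs with hj
  · exact pbond_posSemidef d (bond_ok N (y, j) hj)
  · exact Matrix.PosSemidef.zero

theorem field_posSemidef (d N : ℕ) (h : ℝ) (y : Site N) :
    (((|h| * Sv d : ℝ) : ℂ) • (1 : Matrix (Site N → Fin d) (Site N → Fin d) ℂ) -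
      (h : ℂ) • siteOp y (spinZ d)).PosSemidef := by
  unfold spinZ
  rw [siteOp_diagonal, Matrix.smul_one_eq_diagonal]
  have e : (h : ℂ) • diagonal (fun σ : Site N → Fin d =>
      ((((d : ℝ) - 1) / 2 - ((σ y : ℕ) : ℝ) : ℝ) : ℂ)) =
      diagonal (fun σ : Site N → Fin d =>
        ((h * (((d : ℝ) - 1) / 2 - ((σ y : ℕ) : ℝ)) : ℝ) : ℂ)) := by
    ext σ τ
    by_cases hστ : σ = τ
    · subst hστ; simp
    · simp [hστ]
  rw [e, Matrix.diagonal_sub]
  apply Matrix.PosSemidef.diagonal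
  intro σ
  simp only [Pi.zero_apply]
  rw [← Complex.ofReal_sub, Complex.zero_le_real]
  have h1 := fin_sub_nonneg (σ y)
  have h2 : (0 : ℝ) ≤ ((σ y : ℕ) : ℝ) := by positivity
  have h3 : |((d : ℝ) - 1) / 2 - ((σ y : ℕ) : ℝ)| ≤ Sv d := by
    unfold Sv
    rw [abs_le]
    constructor <;> linarith
  have h4 : h * (((d : ℝ) - 1) / 2 - ((σ y : ℕ) : ℝ)) ≤ |h| * Sv d := by
    calc h * (((d : ℝ) - 1) / 2 - ((σ y : ℕ) : ℝ))
        ≤ |h * (((d : ℝ) - 1) / 2 - ((σ y : ℕ) : ℝ))| := le_abs_self _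
      _ = |h| * |((d : ℝ) - 1) / 2 - ((σ y : ℕ) : ℝ)| := abs_mul _ _
      _ ≤ |h| * Sv d := mul_le_mul_of_nonneg_left h3 (abs_nonneg h)
  linarith

/-- Dropping the bonds between blocks and the field outside the blocks lowers the shifted
Hamiltonian, up to a multiple of the identity. -/
theorem Kt_sub_Kblock_posSemidef (d N L : ℕ) (h : ℝ) :
    (Kt d N h - (Kblock d N L h - ((|h| * Sv d * (Unc N L : ℝ) : ℝ) : ℂ) •
      (1 : Matrix (Site N → Fin d) (Site N → Fin d) ℂ))).PosSemidef := by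
  set ι' : (Fin 3 → Fin ((2 * N + 1) / (2 * L + 1))) × Site L → Site N :=
    fun p => blockSite N L p.1 p.2 with hι'
  have hinj : Function.Injective ι' := blockSite_injective N L
  set P : Site N → Fin 3 → Matrix (Site N → Fin d) (Site N → Fin d) ℂ :=
    fun y j => if (y j : ℕ) + 1 < 2 * N + 1 then pbond d y (nbr y j) else 0 with hP
  -- the block Hamiltonian as a sum over block sites
  have e3 : Kblock d N L h =
      (∑ p : (Fin 3 → Fin ((2 * N + 1) / (2 * L + 1))) × Site L, ∑ j : Fin 3,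
        if (p.2 j : ℕ) + 1 < 2 * L + 1 then P (ι' p) j else 0) -
      (h : ℂ) • ∑ p : (Fin 3 → Fin ((2 * N + 1) / (2 * L + 1))) × Site L,
        siteOp (ι' p) (spinZ d) := by
    unfold Kblock
    simp only [lift_Kt]
    rw [Finset.sum_sub_distrib, ← Finset.smul_sum, Fintype.sum_prod_type, Fintype.sum_prod_type]
    congr 1
    refine Finset.sum_congr rfl fun c _ => Finset.sum_congr rfl fun x _ =>
      Finset.sum_congr rfl fun j _ => ?_
    split_ifs with hj
    · simp only [hP, hι']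
      rw [if_pos (blockSite_nbr N L c x j hj).1]
    · rfl
  have e1 : (∑ y : Site N, ∑ j : Fin 3, P y j) =
      ∑ p, (∑ j : Fin 3, P (ι' p) j) + ∑ y ∈ (Finset.univ.image ι')ᶜ, ∑ j : Fin 3, P y j :=
    sum_eq_sum_image_add_compl ι' hinj _
  have e2 : (∑ y : Site N, siteOp y (spinZ d) : Matrix (Site N → Fin d) (Site N → Fin d) ℂ) =
      ∑ p, siteOp (ι' p) (spinZ d) + ∑ y ∈ (Finset.univ.image ι')ᶜ, siteOp y (spinZ d) :=
    sum_eq_sum_image_add_compl ι' hinj _
  have hcard : ((Finset.univ.image ι')ᶜ).card = Unc N L := by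
    rw [Finset.card_compl, Finset.card_image_of_injective _ hinj, Finset.card_univ,
      Fintype.card_prod]
    rfl
  have e5 : ((|h| * Sv d * (Unc N L : ℝ) : ℝ) : ℂ) •
      (1 : Matrix (Site N → Fin d) (Site N → Fin d) ℂ) =
      ∑ _y ∈ (Finset.univ.image ι')ᶜ, ((|h| * Sv d : ℝ) : ℂ) •
        (1 : Matrix (Site N → Fin d) (Site N → Fin d) ℂ) := by
    rw [Finset.sum_const, hcard, ← Nat.cast_smul_eq_nsmul ℂ, smul_smul]
    congr 1
    push_cast
    ring
  have hdecomp : Kt d N h - (Kblock d N L h - ((|h| * Sv d * (Unc N L : ℝ) : ℝ) : ℂ) •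
      (1 : Matrix (Site N → Fin d) (Site N → Fin d) ℂ)) =
      (∑ p : (Fin 3 → Fin ((2 * N + 1) / (2 * L + 1))) × Site L, ∑ j : Fin 3,
        if (p.2 j : ℕ) + 1 < 2 * L + 1 then 0 else P (ι' p) j) +
      (∑ y ∈ (Finset.univ.image ι')ᶜ, ∑ j : Fin 3, P y j) +
      ∑ y ∈ (Finset.univ.image ι')ᶜ, (((|h| * Sv d : ℝ) : ℂ) •
        (1 : Matrix (Site N → Fin d) (Site N → Fin d) ℂ) - (h : ℂ) • siteOp y (spinZ d)) := by
    have e4 : ∀ p : (Fin 3 → Fin ((2 * N + 1) / (2 * L + 1))) × Site L,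
        (∑ j : Fin 3, if (p.2 j : ℕ) + 1 < 2 * L + 1 then 0 else P (ι' p) j) =
        (∑ j : Fin 3, P (ι' p) j) -
          ∑ j : Fin 3, if (p.2 j : ℕ) + 1 < 2 * L + 1 then P (ι' p) j else 0 := by
      intro p
      rw [← Finset.sum_sub_distrib]
      refine Finset.sum_congr rfl fun j _ => ?_
      split_ifs <;> simp
    have hKt : Kt d N h = (∑ y : Site N, ∑ j : Fin 3, P y j) -
        (h : ℂ) • ∑ y : Site N, siteOp y (spinZ d) := rfl
    rw [hKt, e3, e5, e1, e2]
    simp only [e4, Finset.sum_sub_distrib, smul_add, Finset.smul_sum]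
    abel
  rw [hdecomp]
  refine Matrix.PosSemidef.add (Matrix.PosSemidef.add ?_ ?_) ?_
  · refine posSemidef_sum _ _ fun p _ => posSemidef_sum _ _ fun j _ => ?_
    split_ifs
    · exact Matrix.PosSemidef.zero
    · exact pterm_posSemidef d N _ j
  · exact posSemidef_sum _ _ fun y _ => posSemidef_sum _ _ fun j _ => pterm_posSemidef d N y j
  · exact posSemidef_sum _ _ fun y _ => field_posSemidef d N h y

/-- Subadditivity of the shifted partition function under a partition into blocks. -/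
theorem Zt_sub (d N L : ℕ) (β h : ℝ) (hβ : 0 ≤ β) :
    Zt d N β h ≤ Real.exp (β * (|h| * Sv d * (Unc N L : ℝ))) *
      ((d : ℝ) ^ Unc N L *
        Zt d L β h ^ Fintype.card (Fin 3 → Fin ((2 * N + 1) / (2 * L + 1)))) := by
  have hPSD := Kt_sub_Kblock_posSemidef d N L h
  set κ : ℝ := |h| * Sv d * (Unc N L : ℝ) with hκ
  set A : Matrix (Site N → Fin d) (Site N → Fin d) ℂ :=
    Kblock d N L h - ((κ : ℝ) : ℂ) • (1 : Matrix (Site N → Fin d) (Site N → Fin d) ℂ) with hA
  have hB : (Kt d N h).IsHermitian := Kt_hermitian d N h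
  have hAH : A.IsHermitian := by
    have : A = Kt d N h - (Kt d N h - A) := by abel
    rw [this]
    exact hB.sub hPSD.isHermitian
  have hmono := trace_exp_antitone A (Kt d N h) hAH hB hPSD β hβ
  have hA' : A = Kblock d N L h + (((-κ : ℝ)) : ℂ) •
      (1 : Matrix (Site N → Fin d) (Site N → Fin d) ℂ) := by
    rw [hA]
    push_cast
    rw [neg_smul, sub_eq_add_neg]
  have hshift : (trace (NormedSpace.exp (((-β : ℝ) : ℂ) • A))).re =
      Real.exp (β * κ) * (trace (NormedSpace.exp (((-β : ℝ) : ℂ) • Kblock d N L h))).re := by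
    rw [hA', trace_exp_shift]
    congr 2
    ring
  have hfac : trace (NormedSpace.exp (((-β : ℝ) : ℂ) • Kblock d N L h)) =
      (((d : ℝ) ^ Unc N L *
        Zt d L β h ^ Fintype.card (Fin 3 → Fin ((2 * N + 1) / (2 * L + 1))) : ℝ) : ℂ) := by
    have e : ((-β : ℝ) : ℂ) • Kblock d N L h =
        ∑ c : Fin 3 → Fin ((2 * N + 1) / (2 * L + 1)),
          lift (blockSite N L c) (((-β : ℝ) : ℂ) • Kt d L h) := by
      unfold Kblock
      rw [Finset.smul_sum]
      refine Finset.sum_congr rfl fun c _ => ?_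
      rw [lift_smul]
    have hz : trace (NormedSpace.exp (((-β : ℝ) : ℂ) • Kt d L h)) = ((Zt d L β h : ℝ) : ℂ) :=
      trace_exp_real (Kt d L h) (Kt_hermitian d L h) (-β)
    rw [e, trace_exp_sum_lift (blockSite N L) (blockSite_injective N L), hz]
    rw [Complex.ofReal_mul, Complex.ofReal_pow, Complex.ofReal_pow, Complex.ofReal_natCast]
    rfl
  have hfin : Zt d N β h ≤ Real.exp (β * κ) *
      (trace (NormedSpace.exp (((-β : ℝ) : ℂ) • Kblock d N L h))).re := by
    rw [← hshift]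
    exact hmono
  rw [hfac, Complex.ofReal_re] at hfin
  exact hfin

end Vale.Agent.Lib.P361.TL
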